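import Vale.Agent.P022.H692.Swx
import Vale.Agent.P022.H472.Lit2

/-!
# [NRM2], [APP2]: characters of level `2 ^ ∞ m`, all the continuous characters of
`(𝓞 K ⊗ ℤ₂)ˣ`-type, in the letters of H472/Lit2.lean
-/

open scoped NumberField
open Polynomial

set_option linter.unusedSectionVars false

namespace Vale.Agent.P022.H692

variable {K : Type} [Field K] [NumberField K] {E : Type} [NontriviallyNormedField E]

/-- `ψ` (a function on ideals) is continuous with tame conductor `m`: `ψ((α)) → 1` as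
`α → 1` for the `2`-adic topology of `𝓞 K`, `α ≡ 1 mod m` -/
def Cont2 (m : ℕ) (ψ : Ideal (𝓞 K) →* E) : Prop :=
  ∀ ε : ℝ, 0 < ε → ∃ r : ℕ, ∀ α : 𝓞 K, ((2 ^ r * m : ℕ) : 𝓞 K) ∣ α - 1 →
    ‖ψ (Ideal.span {α}) - 1‖ < ε

variable [NormedAlgebra ℚ_[2] E] [IsUltrametricDist E] (ι : K →+* E)

theorem norm_two_mul_lt (m : ℕ) : ‖ι (((2 * m : ℕ) : 𝓞 K) : K)‖ < 1 := by
  have h1 := norm_sub_le_of_dvd ι (r := 1) (m := m) (α := ((2 * m : ℕ) : 𝓞 K)) (β := 0)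
    (by simp)
  have h0 : ι ((0 : 𝓞 K) : K) = 0 := by simp
  rw [h0, sub_zero, pow_one] at h1
  exact h1.trans_lt (by norm_num)

theorem norm_eq_one_of_coprime {m : ℕ} {α : 𝓞 K} (h : IsCoprime α ((2 * m : ℕ) : 𝓞 K)) :
    ‖ι α‖ = 1 := by
  obtain ⟨u, v, huv⟩ := h
  refine le_antisymm (norm_ι_le ι α) ?_
  by_contra hlt
  rw [not_le] at hlt
  have h1 : (1 : E) = ι u * ι α + ι v * ι (((2 * m : ℕ) : 𝓞 K) : K) := by
    have := congrArg (fun z : 𝓞 K => ι (z : K)) huv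
    simp only [map_add, map_mul, map_one] at this
    exact this.symm
  have h2 : ‖(1 : E)‖ < 1 := by
    rw [h1]
    refine (IsUltrametricDist.norm_add_le_max _ _).trans_lt (max_lt ?_ ?_)
    · rw [norm_mul]
      exact mul_lt_one_of_nonneg_of_lt_one_right (norm_ι_le ι u) (norm_nonneg _) hlt
    · rw [norm_mul]
      exact mul_lt_one_of_nonneg_of_lt_one_right (norm_ι_le ι v) (norm_nonneg _)
        (norm_two_mul_lt ι m)
  rw [norm_one] at h2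
  exact absurd h2 (lt_irrefl _)

omit [NormedAlgebra ℚ_[2] E] in
theorem norm_eq_one_of_sub {x : E} (h : ‖x - 1‖ < 1) : ‖x‖ = 1 := by
  have h1 := IsUltrametricDist.norm_add_eq_max_of_norm_ne_norm (x := x - 1) (y := 1)
    (by rw [norm_one]; exact h.ne)
  rw [sub_add_cancel, norm_one, max_eq_right h.le] at h1
  exact h1

theorem coprime_pow {m : ℕ} (r : ℕ) {R : Type*} [CommRing R] {α : R}
    (h : IsCoprime α ((2 * m : ℕ) : R)) : IsCoprime α ((2 ^ (r + 1) * m : ℕ) : R) := by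
  refine (h.pow_right (n := r + 1)).of_isCoprime_of_dvd_right ?_
  refine ⟨(m : R) ^ r, ?_⟩
  push_cast
  ring

/-- a power of an element prime to `n` is `≡ 1 mod n` -/
theorem exists_pow_one {n : ℕ} (hn : 0 < n) {α : 𝓞 K} (h : IsCoprime α (n : 𝓞 K)) :
    ∃ k : ℕ, 0 < k ∧ (n : 𝓞 K) ∣ α ^ k - 1 := by
  have hfin := finite_cls (K := K) hn
  have hu : IsUnit (Ideal.Quotient.mk (Ideal.span {(n : 𝓞 K)}) α) := by
    obtain ⟨u, v, huv⟩ := h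
    refine IsUnit.of_mul_eq_one (Ideal.Quotient.mk _ u) ?_
    rw [← map_mul, ← map_one (Ideal.Quotient.mk _), Ideal.Quotient.eq,
      Ideal.mem_span_singleton]
    exact ⟨-v, by linear_combination huv⟩
  obtain ⟨k, hk, hk1⟩ := isOfFinOrder_iff_pow_eq_one.1 (isOfFinOrder_of_finite hu.unit)
  refine ⟨k, hk, ?_⟩
  rw [← Ideal.mem_span_singleton, ← Ideal.Quotient.eq, map_pow, map_one]
  have := congrArg Units.val hk1
  simpa using this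

include ι in
theorem ne_bot_of_coprime {m : ℕ} {𝔞 : Ideal (𝓞 K)}
    (h : IsCoprime 𝔞 (Ideal.span {((2 * m : ℕ) : 𝓞 K)})) : 𝔞 ≠ ⊥ := by
  rintro rfl
  rw [Ideal.isCoprime_iff_sup_eq, bot_sup_eq, Ideal.span_singleton_eq_top] at h
  obtain ⟨v, hv⟩ := h.exists_left_inv
  have h3 := norm_eq_one_of_coprime ι (m := m) (α := (0 : 𝓞 K)) ⟨0, v, by rw [hv]; simp⟩
  simp at h3

include ι in
/-- **[NRM2]** -/
theorem nrm2 {m : ℕ} (hm : 0 < m) {ψ : Ideal (𝓞 K) →* E} (hψ : Cont2 m ψ)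
    {𝔞 : Ideal (𝓞 K)} (h : IsCoprime 𝔞 (Ideal.span {((2 * m : ℕ) : 𝓞 K)})) : ‖ψ 𝔞‖ = 1 := by
  obtain ⟨r, hr⟩ := hψ 1 one_pos
  have h0 : 𝔞 ≠ ⊥ := ne_bot_of_coprime ι h
  set c := Fintype.card (ClassGroup (𝓞 K)) with hc
  have hc0 : c ≠ 0 := Fintype.card_ne_zero
  have h1 : (𝔞 ^ c).IsPrincipal := by
    have h2 : ClassGroup.mk0 (⟨𝔞, mem_nonZeroDivisors_of_ne_zero h0⟩ ^ c :
        nonZeroDivisors (Ideal (𝓞 K))) = 1 := by
      rw [map_pow]; exact pow_card_eq_one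
    exact (ClassGroup.mk0_eq_one_iff _).1 h2
  obtain ⟨α, hα⟩ := h1.principal
  rw [Ideal.submodule_span_eq] at hα
  have hcop : IsCoprime α ((2 * m : ℕ) : 𝓞 K) := by
    rw [← Ideal.isCoprime_span_singleton_iff, ← hα]
    exact h.pow_left
  obtain ⟨k, hk, hk1⟩ := exists_pow_one (by positivity) (coprime_pow r hcop)
  have hdvd : ((2 ^ r * m : ℕ) : 𝓞 K) ∣ ((2 ^ (r + 1) * m : ℕ) : 𝓞 K) :=
    ⟨2, by push_cast; ring⟩
  have h3 := norm_eq_one_of_sub (hr _ (hdvd.trans hk1))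
  rw [← Ideal.span_singleton_pow, ← hα, ← pow_mul, map_pow, norm_pow] at h3
  exact (pow_eq_one_iff_of_nonneg (norm_nonneg _) (Nat.mul_ne_zero hc0 hk.ne')).1 h3

/-- uniform continuity -/
theorem cont_of {m : ℕ} {ψ : Ideal (𝓞 K) →* E} (hψ : Cont2 m ψ)
    (hn : ∀ α : 𝓞 K, IsCoprime α ((2 * m : ℕ) : 𝓞 K) → ‖ψ (Ideal.span {α})‖ = 1)
    {ε : ℝ} (hε : 0 < ε) : ∃ r : ℕ, ∀ α β : 𝓞 K, IsCoprime α ((2 * m : ℕ) : 𝓞 K) →
      ((2 ^ (r + 1) * m : ℕ) : 𝓞 K) ∣ α - β →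
      ‖ψ (Ideal.span {α}) - ψ (Ideal.span {β})‖ < ε := by
  obtain ⟨r, hr⟩ := hψ ε hε
  refine ⟨r, fun α β hα hab => ?_⟩
  obtain ⟨γ, δ, hγ⟩ := coprime_pow r hα
  have hdvd : ((2 ^ r * m : ℕ) : 𝓞 K) ∣ ((2 ^ (r + 1) * m : ℕ) : 𝓞 K) :=
    ⟨2, by push_cast; ring⟩
  have hdvd' : ((2 * m : ℕ) : 𝓞 K) ∣ ((2 ^ (r + 1) * m : ℕ) : 𝓞 K) :=
    ⟨2 ^ r, by push_cast; ring⟩
  have h1 : ((2 ^ (r + 1) * m : ℕ) : 𝓞 K) ∣ α * γ - 1 := ⟨-δ, by linear_combination hγ⟩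
  have h2 : ((2 ^ (r + 1) * m : ℕ) : 𝓞 K) ∣ β * γ - 1 := by
    have : β * γ - 1 = (α * γ - 1) - (α - β) * γ := by ring
    rw [this]; exact dvd_sub h1 (hab.mul_right _)
  have h3 := hr _ (hdvd.trans h1)
  have h4 := hr _ (hdvd.trans h2)
  rw [← Ideal.span_singleton_mul_span_singleton, map_mul] at h3 h4
  have hγc : IsCoprime γ ((2 * m : ℕ) : 𝓞 K) := by
    obtain ⟨c, hc⟩ := hdvd'
    exact ⟨α, δ * c, by rw [hc] at hγ; linear_combination hγ⟩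
  have h5 := hn γ hγc
  have h6 : ‖(ψ (Ideal.span {α}) - ψ (Ideal.span {β})) * ψ (Ideal.span {γ})‖ < ε := by
    have : (ψ (Ideal.span {α}) - ψ (Ideal.span {β})) * ψ (Ideal.span {γ}) =
      (ψ (Ideal.span {α}) * ψ (Ideal.span {γ}) - 1) -
        (ψ (Ideal.span {β}) * ψ (Ideal.span {γ}) - 1) := by ring
    rw [this]
    exact (H587.norm_sub_le_max' _ _).trans_lt (max_lt h3 h4)
  rwa [norm_mul, h5, mul_one] at h6

/-- the class of functions used for `App`: periodic modulo some `2 ^ r m` and homogeneous -/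
def Fcl (K : Type) [Field K] [NumberField K] (m N : ℕ) (χ : ℤ → ℤ) : Set (𝓞 K → ℤ) :=
  {f | ∃ r : ℕ, (∀ α β : 𝓞 K, f (α + ((2 ^ r * m : ℕ) : 𝓞 K) * β) = f α) ∧
    ∀ (d : ℤ) (α : 𝓞 K), Odd d → (N : ℤ) ∣ d - 1 → f ((d : 𝓞 K) * α) = χ d * f α}

/-- **[APP2]** -/
theorem app2 {N m : ℕ} {χ : ℤ → ℤ} (hm0 : 0 < m) (hm2 : Odd m) (hm : m ∣ N)
    (hχ : ∀ d, Odd d → χ d * χ d = 1)
    (hχp : ∀ d e, (8 : ℤ) ∣ d - e → χ d = χ e)
    (hχm : ∀ d e, Odd d → Odd e → χ (d * e) = χ d * χ e)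
    {ψ : Ideal (𝓞 K) →* E} (hψ : Cont2 m ψ)
    (hn : ∀ 𝔞 : Ideal (𝓞 K), IsCoprime 𝔞 (Ideal.span {((2 * m : ℕ) : 𝓞 K)}) → ‖ψ 𝔞‖ = 1) :
    App ι m ψ (Fcl K m N χ) := by
  classical
  have hn' : ∀ α : 𝓞 K, IsCoprime α ((2 * m : ℕ) : 𝓞 K) → ‖ψ (Ideal.span {α})‖ = 1 := by
    intro α h
    exact hn _ ((Ideal.isCoprime_span_singleton_iff _ _).2 h)
  intro ε hε
  obtain ⟨r, J, _, f, P, h1, h2, -, h4⟩ := swx ι hm0 hm2 hm hχ hχp hχm
    (fun α : 𝓞 K => if IsCoprime α ((2 * m : ℕ) : 𝓞 K) then ψ (Ideal.span {α}) else 0)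
    (by
      intro ε' hε'
      obtain ⟨r, hr⟩ := cont_of hψ hn' hε'
      refine ⟨r + 1, fun α β hab => ?_⟩
      have hdvd' : ((2 * m : ℕ) : 𝓞 K) ∣ ((2 ^ (r + 1) * m : ℕ) : 𝓞 K) :=
        ⟨2 ^ r, by push_cast; ring⟩
      have h : ∀ α β : 𝓞 K, ((2 * m : ℕ) : 𝓞 K) ∣ α - β → IsCoprime α ((2 * m : ℕ) : 𝓞 K) →
          IsCoprime β ((2 * m : ℕ) : 𝓞 K) := by
        rintro α β ⟨c, hc⟩ ⟨u, v, huv⟩
        exact ⟨u, u * c + v, by linear_combination huv - u * hc⟩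
      by_cases hα : IsCoprime α ((2 * m : ℕ) : 𝓞 K)
      · have hβ := h α β (hdvd'.trans hab) hα
        simp only [if_pos hα, if_pos hβ]
        exact hr α β hα hab
      · have hβ : ¬ IsCoprime β ((2 * m : ℕ) : 𝓞 K) := fun hβ =>
          hα (h β α (by rw [← neg_sub, dvd_neg]; exact hdvd'.trans hab) hβ)
        simp only [if_neg hα, if_neg hβ, sub_self, norm_zero]
        exact hε')
    (by
      intro α h
      by_cases hα : IsCoprime α ((2 * m : ℕ) : 𝓞 K)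
      · exact norm_eq_one_of_coprime ι hα
      · rw [if_neg hα] at h; exact absurd rfl h) hε
  let e := Fintype.equivFin J
  refine ⟨Fintype.card J, fun i => f (e.symm i), fun i => P (e.symm i),
    fun i => ⟨r, h1 _, h2 _⟩, fun α hα => ?_⟩
  have h5 := h4 α
  simp only [if_pos hα] at h5
  rw [← Equiv.sum_comp e.symm (fun j => (f j α : E) * (P j).eval (ι α))] at h5
  exact h5

end Vale.Agent.P022.H692
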