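import Vale.Agent.P022.H692.App2
import Vale.Agent.P022.H933.Ext2

/-!
# `APP2Stmt`, `NRM2Stmt` in the literal of H933/Ext2.lean
-/

open scoped NumberField
open Polynomial

namespace Vale.Agent.P022.H692

theorem APP2 : X.APP2Stmt := by
  intro K _ _ E _ _ _ _ ι m N hm hmN χ hχ1 hχ8 hχm ψ hψ hn
  have hper : ∀ d e : ℤ, (8 : ℤ) ∣ d - e → χ d = χ e := by
    have h1 : ∀ (k : ℕ) (d : ℤ), χ (d + 8 * k) = χ d := by
      intro k
      induction k with
      | zero => intro d; simp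
      | succ k ih =>
        intro d
        have : d + 8 * ((k + 1 : ℕ) : ℤ) = (d + 8 * k) + 8 := by push_cast; ring
        rw [this, hχ8, ih]
    rintro d e ⟨k, hk⟩
    rcases Int.eq_nat_or_neg k with ⟨n, rfl | rfl⟩
    · have : d = e + 8 * n := by linarith
      rw [this, h1]
    · have : e = d + 8 * n := by linarith
      rw [this, h1]
  have hm0 : 0 < m := hm.pos
  intro ε hε
  obtain ⟨n, f, g, h1, h2⟩ := app2 ι (N := N) (χ := χ) hm0 hm hmN
    (fun d hd => by rcases hχ1 d hd with h | h <;> rw [h] <;> rfl) hper hχm hψ hn ε hε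
  refine ⟨n, f, g, fun i => ?_, h2⟩
  obtain ⟨r, h3, h4⟩ := h1 i
  exact ⟨r, h3, fun d hd hN α => h4 d α hd hN⟩

end Vale.Agent.P022.H692
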