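import Vale.Agent.P022.H587.SWS

/-!
# [SWX] continuous functions on `𝓞 K`, supported on the units at the chosen place above `2`, are
uniform limits of combinations of `f(α) ι(α) ^ κ`, `f` integer valued, periodic mod `2 ^ r m` and
`f(d α) = χ(d) f(α)` for `d` odd, `d ≡ 1 mod N`
(P022-X, blueprint #9105 of helper933, step (W))
-/

open scoped NumberField
open Polynomial

set_option linter.unusedSectionVars false

namespace Vale.Agent.P022.H692

section norms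

variable {K : Type} [Field K] [NumberField K] {E : Type} [NontriviallyNormedField E]
  [NormedAlgebra ℚ_[2] E] (ι : K →+* E)

theorem norm_ι_int (n : ℤ) : ‖ι (n : K)‖ = ‖(n : ℚ_[2])‖ := by
  have h : ι (n : K) = algebraMap ℚ_[2] E (n : ℚ_[2]) := by simp
  rw [h, norm_algebraMap']

theorem norm_ι_int_le (n : ℤ) (r : ℕ) :
    ‖ι (n : K)‖ ≤ (2 : ℝ)⁻¹ ^ r ↔ (2 ^ r : ℤ) ∣ n := by
  have h := Padic.norm_int_le_pow_iff_dvd (p := 2) n r
  rw [norm_ι_int]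
  have h2 : (((2 : ℕ) : ℝ) ^ (-(r : ℤ))) = (2 : ℝ)⁻¹ ^ r := by
    rw [zpow_neg, zpow_natCast, inv_pow]; norm_num
  rw [h2] at h
  exact_mod_cast h

theorem norm_ι_le (α : 𝓞 K) : ‖ι α‖ ≤ 1 := by
  obtain ⟨C, hC, h⟩ := H587.exists_compact K E ι
  obtain ⟨B, hB⟩ := hC.isBounded.exists_norm_le
  by_contra hlt
  rw [not_le] at hlt
  obtain ⟨n, hn⟩ := pow_unbounded_of_one_lt B hlt
  have h1 := hB _ (h (α ^ n))
  have h2 : ι ((α ^ n : 𝓞 K) : K) = ι α ^ n := by simp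
  rw [h2, norm_pow] at h1
  exact absurd h1 (not_le.2 hn)

theorem norm_sub_le_of_dvd {r m : ℕ} {α β : 𝓞 K} (h : ((2 ^ r * m : ℕ) : 𝓞 K) ∣ α - β) :
    ‖ι α - ι β‖ ≤ (2 : ℝ)⁻¹ ^ r := by
  obtain ⟨γ, hγ⟩ := h
  have h1 : ι α - ι β = ι (((2 ^ r : ℕ) : ℤ) : K) * ι ((m * γ : 𝓞 K) : K) := by
    rw [← map_sub, ← map_mul]
    congr 1
    have := congrArg (fun z : 𝓞 K => (z : K)) hγ
    simp only [map_sub, map_mul, map_natCast] at this
    rw [this]; push_cast; ring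
  rw [h1, norm_mul]
  have h2 := norm_ι_le ι (m * γ)
  have h3 : ‖ι ((((2 ^ r : ℕ) : ℤ)) : K)‖ ≤ (2 : ℝ)⁻¹ ^ r := by
    rw [norm_ι_int_le]; push_cast; exact dvd_rfl
  calc _ ≤ (2 : ℝ)⁻¹ ^ r * 1 := mul_le_mul h3 h2 (norm_nonneg _) (by positivity)
    _ = _ := mul_one _

theorem dvd_of_norm {r : ℕ} {x : 𝓞 K} (hx : ‖ι x‖ = 1) {d e : ℤ}
    (h : ‖ι ((d * x : 𝓞 K) : K) - ι ((e * x : 𝓞 K) : K)‖ ≤ (2 : ℝ)⁻¹ ^ r) :
    (2 ^ r : ℤ) ∣ d - e := by
  rw [← norm_ι_int_le ι]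
  have h1 : ι ((d * x : 𝓞 K) : K) - ι ((e * x : 𝓞 K) : K) = ι ((d - e : ℤ) : K) * ι x := by
    push_cast
    simp only [map_mul, map_sub, map_intCast]
    ring
  rw [h1, norm_mul, hx, mul_one] at h
  exact h

end norms

section rel

variable {K : Type} [Field K] [NumberField K]

/-- the orbits of `{d odd, d ≡ 1 mod N}` on `𝓞 K` modulo `2 ^ r m` -/
def Rel (N r m : ℕ) (x α : 𝓞 K) : Prop :=
  ∃ d : ℤ, Odd d ∧ (N : ℤ) ∣ d - 1 ∧ ((2 ^ r * m : ℕ) : 𝓞 K) ∣ α - d * x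

theorem exists_inv {N r : ℕ} {d : ℤ} (hd : Odd d) (hN : (N : ℤ) ∣ d - 1) :
    ∃ e : ℤ, Odd e ∧ (N : ℤ) ∣ e - 1 ∧ ((2 ^ r * N : ℕ) : ℤ) ∣ d * e - 1 := by
  have h2 : IsCoprime d 2 := by
    obtain ⟨k, hk⟩ := hd
    exact ⟨1, -k, by rw [hk]; ring⟩
  have hN' : IsCoprime d (N : ℤ) := by
    obtain ⟨k, hk⟩ := hN
    exact ⟨1, -k, by linarith⟩
  have h3 : IsCoprime d (2 ^ (r + 1) * (N : ℤ)) := IsCoprime.mul_right (h2.pow_right) hN'
  obtain ⟨a, b, hab⟩ := h3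
  refine ⟨a, ?_, ?_, ?_⟩
  · rw [← Int.not_even_iff_odd]
    rintro ⟨k, hk⟩
    have : 2 * (k * d + b * 2 ^ r * N) = 1 := by
      rw [← hab, hk]; ring
    omega
  · obtain ⟨k, hk⟩ := hN
    refine ⟨-(b * 2 ^ (r + 1)) - k * a, ?_⟩
    have : d = N * k + 1 := by linarith
    rw [this] at hab
    linear_combination hab
  · refine ⟨-(b * 2), ?_⟩
    push_cast
    linear_combination hab

theorem natCast_dvd {M L : ℕ} (h : M ∣ L) {z : ℤ} (hz : (L : ℤ) ∣ z) (x : 𝓞 K) :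
    (M : 𝓞 K) ∣ (z : 𝓞 K) * x := by
  have h1 : ((M : ℤ)) ∣ z := (Int.natCast_dvd_natCast.2 h).trans hz
  obtain ⟨k, rfl⟩ := h1
  exact ⟨k * x, by push_cast; ring⟩

variable {N r m : ℕ} (hm : m ∣ N)

theorem Rel.refl (x : 𝓞 K) : Rel N r m x x := ⟨1, odd_one, by simp, by simp⟩

include hm in
theorem Rel.symm' {x y : 𝓞 K} (h : Rel N r m x y) : Rel N r m y x := by
  obtain ⟨d, hd, hN, hM⟩ := h
  obtain ⟨e, he, hN', hM'⟩ := exists_inv (r := r) hd hN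
  refine ⟨e, he, hN', ?_⟩
  have h1 : x - e * y = -(((d * e - 1 : ℤ) : 𝓞 K) * x) - e * (y - d * x) := by
    push_cast; ring
  rw [h1]
  exact dvd_sub ((dvd_neg).2 (natCast_dvd (Nat.mul_dvd_mul_left _ hm) hM' x)) (hM.mul_left _)

theorem Rel.trans' {x y z : 𝓞 K} (h : Rel N r m x y) (h' : Rel N r m y z) : Rel N r m x z := by
  obtain ⟨d, hd, hN, hM⟩ := h
  obtain ⟨e, he, hN', hM'⟩ := h'
  refine ⟨e * d, he.mul hd, ?_, ?_⟩
  · have : e * d - 1 = e * (d - 1) + (e - 1) := by ring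
    rw [this]; exact dvd_add (hN.mul_left _) hN'
  · have : z - ((e * d : ℤ) : 𝓞 K) * x = (z - e * y) + e * (y - d * x) := by push_cast; ring
    rw [this]; exact dvd_add hM' (hM.mul_left _)

/-- the setoid -/
def st (N r m : ℕ) (hm : m ∣ N) : Setoid (𝓞 K) where
  r := Rel N r m
  iseqv := ⟨Rel.refl, fun h => h.symm' hm, fun h h' => h.trans' h'⟩

theorem Rel.of_dvd {x y : 𝓞 K} (h : ((2 ^ r * m : ℕ) : 𝓞 K) ∣ y - x) : Rel N r m x y :=
  ⟨1, odd_one, by simp, by simpa using h⟩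

theorem finite_cls {M : ℕ} (hM : 0 < M) : Finite (𝓞 K ⧸ Ideal.span {(M : 𝓞 K)}) := by
  refine Ideal.finiteQuotientOfFreeOfNeBot _ ?_
  rw [Ne, Ideal.span_singleton_eq_bot]
  exact_mod_cast hM.ne'

theorem finite_st (hm0 : 0 < m) : Finite (Quotient (st (K := K) N r m hm)) := by
  have := finite_cls (K := K) (M := 2 ^ r * m) (by positivity)
  refine Finite.of_surjective (fun q : 𝓞 K ⧸ Ideal.span {((2 ^ r * m : ℕ) : 𝓞 K)} =>
    (Quotient.mk (st (K := K) N r m hm) (Quotient.out q))) ?_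
  intro q
  obtain ⟨x, rfl⟩ := Quotient.exists_rep q
  refine ⟨Ideal.Quotient.mk _ x, ?_⟩
  apply Quotient.sound
  show Rel N r m _ _
  apply Rel.of_dvd
  rw [← Ideal.mem_span_singleton]
  rw [← Ideal.Quotient.eq]
  exact (Quotient.out_eq (Ideal.Quotient.mk (Ideal.span {((2 ^ r * m : ℕ) : 𝓞 K)}) x)).symm

/-- canonical representative mod `M` -/
noncomputable def can (M : ℕ) (α : 𝓞 K) : 𝓞 K :=
  Quotient.out (Ideal.Quotient.mk (Ideal.span {(M : 𝓞 K)}) α)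

theorem can_dvd (M : ℕ) (α : 𝓞 K) : (M : 𝓞 K) ∣ α - can M α := by
  rw [← Ideal.mem_span_singleton, ← Ideal.Quotient.eq]
  exact (Quotient.out_eq (Ideal.Quotient.mk (Ideal.span {(M : 𝓞 K)}) α)).symm

theorem can_eq (M : ℕ) {α β : 𝓞 K} (h : (M : 𝓞 K) ∣ α - β) : can M α = can M β := by
  rw [can, can]
  congr 1
  rw [Ideal.Quotient.eq, Ideal.mem_span_singleton]
  exact h

end rel

section main

variable {K : Type} [Field K] [NumberField K] {E : Type} [NontriviallyNormedField E]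
  [NormedAlgebra ℚ_[2] E] (ι : K →+* E)

open scoped Classical in
/-- the homogeneous indicator function of the orbit of `x` -/
noncomputable def F (N r m : ℕ) (χ : ℤ → ℤ) (x α : 𝓞 K) : ℤ :=
  if h : ‖ι x‖ = 1 ∧ Rel N r m x α then χ h.2.choose else 0

variable {N r m : ℕ} {χ : ℤ → ℤ}

theorem F_eq (hr : 3 ≤ r) (hχp : ∀ d e, (8 : ℤ) ∣ d - e → χ d = χ e) {x α : 𝓞 K}
    (hx : ‖ι x‖ = 1) {d : ℤ} (hd : Odd d) (hN : (N : ℤ) ∣ d - 1)
    (hM : ((2 ^ r * m : ℕ) : 𝓞 K) ∣ α - d * x) : F ι N r m χ x α = χ d := by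
  have h : ‖ι x‖ = 1 ∧ Rel N r m x α := ⟨hx, d, hd, hN, hM⟩
  rw [F, dif_pos h]
  apply hχp
  obtain ⟨-, -, h3⟩ := h.2.choose_spec
  set e := h.2.choose with he
  have h4 : ((2 ^ r * m : ℕ) : 𝓞 K) ∣ e * x - d * x := by
    have : (e : 𝓞 K) * x - d * x = (α - d * x) - (α - e * x) := by ring
    rw [this]; exact dvd_sub hM h3
  exact (pow_dvd_pow 2 hr).trans (dvd_of_norm ι hx (norm_sub_le_of_dvd ι h4))

theorem F_zero {x α : 𝓞 K} (h : ¬ Rel N r m x α) : F ι N r m χ x α = 0 := by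
  rw [F, dif_neg (fun h' => h h'.2)]

theorem F_zero' {x α : 𝓞 K} (h : ‖ι x‖ ≠ 1) : F ι N r m χ x α = 0 := by
  rw [F, dif_neg (fun h' => h h'.1)]

theorem F_per (hr : 3 ≤ r) (hχp : ∀ d e, (8 : ℤ) ∣ d - e → χ d = χ e) (x α β : 𝓞 K) :
    F ι N r m χ x (α + ((2 ^ r * m : ℕ) : 𝓞 K) * β) = F ι N r m χ x α := by
  by_cases hx : ‖ι x‖ = 1
  · by_cases h : Rel N r m x α
    · obtain ⟨d, hd, hN, hM⟩ := h
      rw [F_eq ι hr hχp hx hd hN hM, F_eq ι hr hχp hx hd hN]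
      have : α + ((2 ^ r * m : ℕ) : 𝓞 K) * β - d * x =
        (α - d * x) + ((2 ^ r * m : ℕ) : 𝓞 K) * β := by ring
      rw [this]; exact dvd_add hM (dvd_mul_right _ _)
    · rw [F_zero ι h, F_zero ι]
      intro h'
      obtain ⟨d, hd, hN, hM⟩ := h'
      refine h ⟨d, hd, hN, ?_⟩
      have : α - d * x = (α + ((2 ^ r * m : ℕ) : 𝓞 K) * β - d * x) -
        ((2 ^ r * m : ℕ) : 𝓞 K) * β := by ring
      rw [this]; exact dvd_sub hM (dvd_mul_right _ _)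
  · rw [F_zero' ι hx, F_zero' ι hx]

theorem F_smul (hr : 3 ≤ r) (hm : m ∣ N) (hχp : ∀ d e, (8 : ℤ) ∣ d - e → χ d = χ e)
    (hχm : ∀ d e, Odd d → Odd e → χ (d * e) = χ d * χ e) (x α : 𝓞 K) {d : ℤ} (hd : Odd d)
    (hN : (N : ℤ) ∣ d - 1) :
    F ι N r m χ x ((d : 𝓞 K) * α) = χ d * F ι N r m χ x α := by
  have hRd : Rel N r m α (d * α) := ⟨d, hd, hN, by simp⟩
  by_cases hx : ‖ι x‖ = 1
  · by_cases h : Rel N r m x α
    · obtain ⟨e, he, hN', hM⟩ := h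
      rw [F_eq ι hr hχp hx he hN' hM, F_eq ι hr hχp hx (hd.mul he) (d := d * e), hχm _ _ hd he]
      · have : d * e - 1 = d * (e - 1) + (d - 1) := by ring
        rw [this]; exact dvd_add (hN'.mul_left _) hN
      · have : (d : 𝓞 K) * α - ((d * e : ℤ) : 𝓞 K) * x = d * (α - e * x) := by push_cast; ring
        rw [this]; exact hM.mul_left _
    · rw [F_zero ι h, F_zero ι, mul_zero]
      intro h'
      exact h (h'.trans' (hRd.symm' hm))
  · rw [F_zero' ι hx, F_zero' ι hx, mul_zero]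

theorem norm_one_of_rel [IsUltrametricDist E] (hr : 3 ≤ r) {x α : 𝓞 K} (h : Rel N r m x α)
    (hα : ‖ι α‖ = 1) : ‖ι x‖ = 1 := by
  obtain ⟨d, -, -, hM⟩ := h
  have h1 := norm_sub_le_of_dvd ι hM
  have h2 : (2 : ℝ)⁻¹ ^ r < 1 := pow_lt_one₀ (by norm_num) (by norm_num) (by omega)
  have h3 : ‖ι ((d * x : 𝓞 K) : K)‖ = ‖ι (d : K)‖ * ‖ι x‖ := by
    rw [← norm_mul, ← map_mul]; simp
  have h4 : ‖ι (d : K)‖ ≤ 1 := by
    have := (norm_ι_int_le ι d 0).2 (by simp)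
    simpa using this
  refine le_antisymm (norm_ι_le ι x) ?_
  by_contra hlt
  rw [not_le] at hlt
  have h5 : ‖ι ((d * x : 𝓞 K) : K)‖ < 1 := by
    rw [h3]; exact mul_lt_one_of_nonneg_of_lt_one_right h4 (norm_nonneg _) hlt
  have h6 : ι α = (ι α - ι ((d * x : 𝓞 K) : K)) + ι ((d * x : 𝓞 K) : K) := by ring
  have h7 : ‖ι α‖ < 1 := by
    rw [h6]
    exact (IsUltrametricDist.norm_add_le_max _ _).trans_lt (max_lt (h1.trans_lt h2) h5)
  exact absurd hα h7.ne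

theorem swx [IsUltrametricDist E] (hm0 : 0 < m) (hm2 : Odd m) (hm : m ∣ N)
    (hχ : ∀ d, Odd d → χ d * χ d = 1)
    (hχp : ∀ d e, (8 : ℤ) ∣ d - e → χ d = χ e)
    (hχm : ∀ d e, Odd d → Odd e → χ (d * e) = χ d * χ e)
    (ψ : 𝓞 K → E)
    (hψ : ∀ ε : ℝ, 0 < ε → ∃ r : ℕ, ∀ α β : 𝓞 K, ((2 ^ r * m : ℕ) : 𝓞 K) ∣ α - β →
      ‖ψ α - ψ β‖ < ε)
    (hu : ∀ α, ψ α ≠ 0 → ‖ι α‖ = 1) {ε : ℝ} (hε : 0 < ε) :
    ∃ (r : ℕ) (J : Type) (_ : Fintype J) (f : J → 𝓞 K → ℤ) (P : J → E[X]),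
      (∀ j α β, f j (α + ((2 ^ r * m : ℕ) : 𝓞 K) * β) = f j α) ∧
      (∀ j (d : ℤ) α, Odd d → (N : ℤ) ∣ d - 1 → f j ((d : 𝓞 K) * α) = χ d * f j α) ∧
      (∀ j α, f j α ≠ 0 → ‖ι α‖ = 1) ∧
      ∀ α, ‖ψ α - ∑ j, (f j α : E) * (P j).eval (ι α)‖ < ε := by
  classical
  obtain ⟨r0, hr0⟩ := hψ ε hε
  set r := max r0 3 with hrdef
  have hr : 3 ≤ r := le_max_right _ _
  have hcont : ∀ α β : 𝓞 K, ((2 ^ r * m : ℕ) : 𝓞 K) ∣ α - β → ‖ψ α - ψ β‖ < ε := by
    intro α β h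
    refine hr0 α β (dvd_trans ?_ h)
    have h1 : 2 ^ r0 * m ∣ 2 ^ r * m := Nat.mul_dvd_mul_right (pow_dvd_pow 2 (le_max_left r0 3)) m
    exact Nat.cast_dvd_cast h1
  let s := st (K := K) N r m hm
  have hfin : Finite (Quotient s) := finite_st hm hm0
  let ft : Fintype (Quotient s) := Fintype.ofFinite _
  -- the locally constant approximation
  let ψr : 𝓞 K → E := fun α => ψ (can (2 ^ r * m) α)
  have hψr : ∀ α, ‖ψ α - ψr α‖ < ε := fun α => hcont _ _ (can_dvd _ _)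
  obtain ⟨C, hC, hαC⟩ := H587.exists_compact K E ι
  have key : ∀ q : Quotient s, ∃ P : E[X], ∀ a : {α : 𝓞 K // ‖ι q.out‖ = 1 ∧ Rel N r m q.out α},
      ‖(F ι N r m χ q.out a.1 : E) * ψr a.1 - P.eval (ι a.1)‖ < ε := by
    intro q
    refine H587.sw hC (fun a : {α : 𝓞 K // ‖ι q.out‖ = 1 ∧ Rel N r m q.out α} => ι a.1)
      (fun a => hαC a.1) (fun a => (F ι N r m χ q.out a.1 : E) * ψr a.1) ?_ hε
    intro ε' hε'
    refine ⟨(2 : ℝ)⁻¹ ^ r, by positivity, ?_⟩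
    rintro ⟨a, hx, da, hda, hNa, hMa⟩ ⟨b, _hx, db, hdb, hNb, hMb⟩ hab
    change ‖ι a - ι b‖ ≤ _ at hab
    change ‖(F ι N r m χ q.out a : E) * ψr a - (F ι N r m χ q.out b : E) * ψr b‖ < ε'
    have h1 : (2 ^ r : ℤ) ∣ da - db := by
      refine dvd_of_norm ι hx ?_
      have e1 : ι ((da * q.out : 𝓞 K) : K) - ι ((db * q.out : 𝓞 K) : K) =
        -(ι a - ι ((da * q.out : 𝓞 K) : K)) + ((ι a - ι b) +
          (ι b - ι ((db * q.out : 𝓞 K) : K))) := by ring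
      rw [e1]
      refine (IsUltrametricDist.norm_add_le_max _ _).trans (max_le ?_ ?_)
      · rw [norm_neg]; exact norm_sub_le_of_dvd ι hMa
      · exact (IsUltrametricDist.norm_add_le_max _ _).trans
          (max_le hab (norm_sub_le_of_dvd ι hMb))
    have h2 : ((2 ^ r * m : ℕ) : ℤ) ∣ da - db := by
      push_cast
      refine IsCoprime.mul_dvd ?_ h1 ?_
      · refine IsCoprime.pow_left ?_
        obtain ⟨k, hk⟩ := hm2
        exact ⟨-(k : ℤ), 1, by rw [hk]; push_cast; ring⟩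
      · have e1 : da - db = (da - 1) - (db - 1) := by ring
        rw [e1]
        exact (Int.natCast_dvd_natCast.2 hm).trans (dvd_sub hNa hNb)
    have h3 : ((2 ^ r * m : ℕ) : 𝓞 K) ∣ a - b := by
      have e1 : a - b = (a - da * q.out) - (b - db * q.out) + ((da - db : ℤ) : 𝓞 K) * q.out := by
        push_cast; ring
      rw [e1]
      exact dvd_add (dvd_sub hMa hMb) (natCast_dvd dvd_rfl h2 _)
    have h4 : ψr a = ψr b := congrArg ψ (can_eq _ h3)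
    have h5 : F ι N r m χ q.out a = F ι N r m χ q.out b := by
      rw [F_eq ι hr hχp hx hda hNa hMa, F_eq ι hr hχp hx hdb hNb hMb]
      exact hχp _ _ ((pow_dvd_pow 2 hr).trans h1)
    rw [h4, h5, sub_self, norm_zero]
    exact hε'
  choose P hP using key
  refine ⟨r, Quotient s, ft, fun q => F ι N r m χ q.out, P, fun q α β => F_per ι hr hχp _ _ _,
    fun q d α hd hN => F_smul ι hr hm hχp hχm _ _ hd hN, ?_, fun α => ?_⟩
  · intro q α h
    have h1 : ‖ι q.out‖ = 1 ∧ Rel N r m q.out α := by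
      constructor
      · by_contra h2; exact h (F_zero' ι h2)
      · by_contra h2; exact h (F_zero ι h2)
    exact norm_one_of_rel ι hr (h1.2.symm' hm) h1.1
  · have hsum : ∑ q : Quotient s, (F ι N r m χ q.out α : E) * (P q).eval (ι α) =
        (F ι N r m χ (Quotient.mk s α).out α : E) * (P (Quotient.mk s α)).eval (ι α) := by
      refine Finset.sum_eq_single _ ?_ (by simp)
      intro q _ hq
      rw [F_zero ι, Int.cast_zero, zero_mul]
      intro h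
      apply hq
      rw [← Quotient.out_eq q]
      exact Quotient.sound h
    rw [hsum]
    have hrel : Rel N r m (Quotient.mk s α).out α := Quotient.mk_out (s := s) α
    by_cases hx : ‖ι (Quotient.mk s α).out‖ = 1
    · have h1 := hP (Quotient.mk s α) ⟨α, hx, hrel⟩
      simp only at h1
      obtain ⟨d, hd, hN, hM⟩ := hrel
      have hF := F_eq ι (χ := χ) hr hχp hx hd hN hM
      set c : E := (F ι N r m χ (Quotient.mk s α).out α : E) with hc
      have hcc : c * c = 1 := by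
        rw [hc, hF]; exact_mod_cast congrArg (Int.cast : ℤ → E) (hχ d hd)
      have hcn : ‖c‖ = 1 := by
        have := congrArg norm hcc
        rw [norm_mul, norm_one] at this
        nlinarith [norm_nonneg c]
      have e1 : ψ α - c * (P (Quotient.mk s α)).eval (ι α) =
          (ψ α - ψr α) + c * (c * ψr α - (P (Quotient.mk s α)).eval (ι α)) := by
        linear_combination (-(ψr α)) * hcc
      rw [e1]
      refine (IsUltrametricDist.norm_add_le_max _ _).trans_lt (max_lt (hψr α) ?_)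
      rw [norm_mul, hcn, one_mul]
      exact h1
    · rw [F_zero' ι hx, Int.cast_zero, zero_mul, sub_zero]
      have : ψ α = 0 := by
        by_contra h0
        exact hx (norm_one_of_rel ι hr hrel (hu α h0))
      rw [this, norm_zero]; exact hε

end main

end Vale.Agent.P022.H692
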